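import Mathlib

/-!
# P038: generic matrices and the rank inequality
-/

namespace Vale.Agent.P038.H515

open Finset

section Gen

variable {V : Type*} [Fintype V] [DecidableEq V]

/-- The field of rational functions in the entries of a generic matrix. -/
abbrev KK (V : Type*) := FractionRing (MvPolynomial (V × V) ℚ)

open Classical in
/-- the generic matrix with support `{(t, s) : r s t}`. -/
noncomputable def P0 (r : V → V → Prop) (t s : V) : MvPolynomial (V × V) ℚ :=
  if r s t then MvPolynomial.X (t, s) else 0

/-- the generic matrix over the field. -/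
noncomputable def PP (r : V → V → Prop) (t s : V) : KK V :=
  algebraMap (MvPolynomial (V × V) ℚ) (KK V) (P0 r t s)

theorem PP_zero {r : V → V → Prop} {t s : V} (h : ¬ r s t) : PP r t s = 0 := by
  unfold PP P0
  rw [if_neg h, map_zero]

theorem gen_inj (r : V → V → Prop) {S T : Finset V} {f : S → V} (hf : Function.Injective f)
    (hfT : ∀ s, f s ∈ T) (hfr : ∀ s : S, r s (f s)) {c : V → KK V}
    (hc : ∀ t ∈ T, ∑ s ∈ S, c s * PP r t s = 0) : ∀ s ∈ S, c s = 0 := by
  classical
  set M0 : Matrix S S (MvPolynomial (V × V) ℚ) := fun s' s => P0 r (f s') s with hM0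
  have hdet0 : M0.det ≠ 0 := by
    intro h0
    set g : V × V → ℚ := fun p => if h : p.2 ∈ S then (if p.1 = f ⟨p.2, h⟩ then 1 else 0) else 0
      with hg
    have h1 := congrArg (MvPolynomial.eval g) h0
    rw [RingHom.map_det, map_zero] at h1
    have h2 : (MvPolynomial.eval g).mapMatrix M0 = 1 := by
      funext s' s
      show MvPolynomial.eval g (P0 r (f s') s) = (1 : Matrix S S ℚ) s' s
      unfold P0
      by_cases hss : s' = s
      · subst hss
        rw [if_pos (hfr s'), MvPolynomial.eval_X, Matrix.one_apply_eq, hg]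
        simp
      · rw [Matrix.one_apply_ne hss]
        split_ifs with h3
        · rw [MvPolynomial.eval_X, hg]
          simp only [s.2, dite_true]
          rw [if_neg]
          intro h4
          exact hss (hf h4)
        · rw [map_zero]
    rw [h2, Matrix.det_one] at h1
    exact one_ne_zero h1
  set M : Matrix S S (KK V) := (algebraMap (MvPolynomial (V × V) ℚ) (KK V)).mapMatrix M0 with hM
  have hdet : M.det ≠ 0 := by
    rw [hM, ← RingHom.map_det]
    intro h
    apply hdet0
    exact (map_eq_zero_iff _ (IsFractionRing.injective (MvPolynomial (V × V) ℚ) (KK V))).1 h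
  have hv : M.mulVec (fun s : S => c s) = 0 := by
    funext s'
    show ∑ s : S, M s' s * c s = 0
    have h1 := hc (f s') (hfT s')
    rw [← Finset.sum_coe_sort S] at h1
    rw [← h1]
    refine Finset.sum_congr rfl fun s _ => ?_
    rw [mul_comm]
    rfl
  have h2 := Matrix.eq_zero_of_mulVec_eq_zero hdet hv
  intro s hs
  exact congrFun h2 ⟨s, hs⟩

/-- Hall's theorem plus genericity. -/
theorem gen_hall (r : V → V → Prop) [DecidableRel r] {S T : Finset V}
    (hall : ∀ S' ⊆ S, S'.card ≤ (T.filter fun t => ∃ s ∈ S', r s t).card) {c : V → KK V}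
    (hc : ∀ t ∈ T, ∑ s ∈ S, c s * PP r t s = 0) : ∀ s ∈ S, c s = 0 := by
  classical
  obtain ⟨f, hf, hfr⟩ := (Finset.all_card_le_biUnion_card_iff_exists_injective
    (fun s : S => T.filter fun t => r s t)).1 (by
      intro S'
      have h1 := hall (S'.map (Function.Embedding.subtype _)) (by
        intro x hx
        obtain ⟨y, -, rfl⟩ := Finset.mem_map.1 hx
        exact y.2)
      rw [Finset.card_map] at h1
      refine h1.trans (Finset.card_le_card ?_)
      intro t ht
      obtain ⟨htT, s, hs, hst⟩ := Finset.mem_filter.1 ht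
      obtain ⟨y, hy, rfl⟩ := Finset.mem_map.1 hs
      exact Finset.mem_biUnion.2 ⟨y, hy, Finset.mem_filter.2 ⟨htT, hst⟩⟩)
  exact gen_inj r hf (fun s => (Finset.mem_filter.1 (hfr s)).1)
    (fun s => (Finset.mem_filter.1 (hfr s)).2) hc

end Gen

section Ops

variable {V : Type*} [Fintype V] [DecidableEq V]

/-- row dilation -/
def EE (r : V → V → Prop) [DecidableRel r] (B : Finset (V × V)) : Finset (V × V) :=
  Finset.univ.filter fun p => ∃ x, r x p.2 ∧ (p.1, x) ∈ B

/-- column erosion -/
def AA (r : V → V → Prop) [DecidableRel r] (B : Finset (V × V)) : Finset (V × V) :=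
  Finset.univ.filter fun p => ∀ z, r z p.1 → (z, p.2) ∈ B

variable {r : V → V → Prop} [DecidableRel r]

theorem mem_EE {B : Finset (V × V)} {a u : V} :
    (a, u) ∈ EE r B ↔ ∃ x, r x u ∧ (a, x) ∈ B := by
  simp [EE]

theorem mem_AA {B : Finset (V × V)} {z b : V} :
    (z, b) ∈ AA r B ↔ ∀ z', r z' z → (z', b) ∈ B := by
  simp [AA]

/-- The rank inequality. -/
theorem key (B W : Finset (V × V))
    (h1 : ∀ a, ∀ S : Finset V, (∀ x ∈ S, (a, x) ∈ AA r W ∧ (a, x) ∉ AA r B) →
      S.card ≤ (Finset.univ.filter fun u => (∃ x ∈ S, r x u) ∧ (a, u) ∉ AA r (EE r B)).card)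
    (h2 : ∀ u, ∀ S : Finset V, (∀ a ∈ S, (a, u) ∈ EE r W ∧ (a, u) ∉ EE r B) →
      S.card ≤ (Finset.univ.filter fun z => (∃ a ∈ S, r a z) ∧ (z, u) ∈ EE r (AA r W)).card) :
    (EE r W \ EE r B).card + (AA r W \ AA r B).card ≤
      (W \ B).card + (EE r (AA r W) \ AA r (EE r B)).card := by
  classical
  set Eh := EE r W \ EE r B with hEh
  set Ah := AA r W \ AA r B with hAh
  set G := W \ B with hG
  set H := EE r (AA r W) \ AA r (EE r B) with hH
  let al : Matrix G Ah (KK V) := fun g p =>
    if g.1.2 = p.1.2 then PP r p.1.1 g.1.1 else 0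
  let ga : Matrix H Ah (KK V) := fun h p =>
    if h.1.1 = p.1.1 then PP r h.1.2 p.1.2 else 0
  let be : Matrix Eh G (KK V) := fun q g =>
    if q.1.1 = g.1.1 then PP r q.1.2 g.1.2 else 0
  let de : Matrix Eh H (KK V) := fun q h =>
    if q.1.2 = h.1.2 then PP r h.1.1 q.1.1 else 0
  -- the square commutes
  have hcomm : be * al = de * ga := by
    funext q p
    obtain ⟨⟨a', u⟩, hq⟩ := q
    obtain ⟨⟨a, x⟩, hp⟩ := p
    obtain ⟨hq1, hq2⟩ := Finset.mem_sdiff.1 hq
    obtain ⟨hp1, hp2⟩ := Finset.mem_sdiff.1 hp
    have e1 : (be * al) ⟨(a', u), hq⟩ ⟨(a, x), hp⟩ = PP r u x * PP r a a' := by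
      rw [Matrix.mul_apply]
      by_cases hr1 : r x u
      · by_cases hr2 : r a' a
        · have hW : (a', x) ∈ W := mem_AA.1 hp1 a' hr2
          have hB : (a', x) ∉ B := fun hB => hq2 (mem_EE.2 ⟨x, hr1, hB⟩)
          have hGm : (a', x) ∈ G := Finset.mem_sdiff.2 ⟨hW, hB⟩
          rw [Finset.sum_eq_single (⟨(a', x), hGm⟩ : G)]
          · simp only [be, al, if_true]
          · rintro ⟨⟨b, y⟩, hby⟩ - hne
            simp only [be, al]
            by_cases h3 : a' = b
            · by_cases h4 : y = x
              · exact absurd (by subst h3; subst h4; rfl) hne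
              · rw [if_neg h4, mul_zero]
            · rw [if_neg h3, zero_mul]
          · intro h; exact absurd (Finset.mem_univ _) h
        · rw [PP_zero hr2, mul_zero]
          refine Finset.sum_eq_zero ?_
          rintro ⟨⟨b, y⟩, hby⟩ -
          simp only [be, al]
          by_cases h3 : a' = b
          · subst h3
            rw [PP_zero hr2]
            simp
          · rw [if_neg h3, zero_mul]
      · rw [PP_zero hr1, zero_mul]
        refine Finset.sum_eq_zero ?_
        rintro ⟨⟨b, y⟩, hby⟩ -
        simp only [be, al]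
        by_cases h3 : y = x
        · subst h3
          rw [PP_zero hr1]
          simp
        · rw [if_neg h3, mul_zero]
    have e2 : (de * ga) ⟨(a', u), hq⟩ ⟨(a, x), hp⟩ = PP r u x * PP r a a' := by
      rw [Matrix.mul_apply]
      by_cases hr1 : r x u
      · by_cases hr2 : r a' a
        · have hE : (a, u) ∈ EE r (AA r W) := mem_EE.2 ⟨x, hr1, hp1⟩
          have hA : (a, u) ∉ AA r (EE r B) := fun hA => hq2 (mem_AA.1 hA a' hr2)
          have hHm : (a, u) ∈ H := Finset.mem_sdiff.2 ⟨hE, hA⟩
          rw [Finset.sum_eq_single (⟨(a, u), hHm⟩ : H)]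
          · simp only [de, ga, if_true]
            rw [mul_comm]
          · rintro ⟨⟨b, y⟩, hby⟩ - hne
            simp only [de, ga]
            by_cases h3 : u = y
            · by_cases h4 : b = a
              · exact absurd (by subst h3; subst h4; rfl) hne
              · rw [if_neg h4, mul_zero]
            · rw [if_neg h3, zero_mul]
          · intro h; exact absurd (Finset.mem_univ _) h
        · rw [PP_zero hr2, mul_zero]
          refine Finset.sum_eq_zero ?_
          rintro ⟨⟨b, y⟩, hby⟩ -
          simp only [de, ga]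
          by_cases h3 : b = a
          · subst h3
            rw [PP_zero hr2]
            simp
          · rw [if_neg h3, mul_zero]
      · rw [PP_zero hr1, zero_mul]
        refine Finset.sum_eq_zero ?_
        rintro ⟨⟨b, y⟩, hby⟩ -
        simp only [de, ga]
        by_cases h3 : u = y
        · subst h3
          rw [PP_zero hr1]
          simp
        · rw [if_neg h3, zero_mul]
    rw [e1, e2]
  -- the two block matrices
  let Kt : Matrix Eh (G ⊕ H) (KK V) := Matrix.fromCols (-be) de
  let io : Matrix (G ⊕ H) Ah (KK V) := Matrix.fromRows al ga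
  have hz : Kt * io = 0 := by
    show Matrix.fromCols (-be) de * Matrix.fromRows al ga = 0
    rw [Matrix.fromCols_mul_fromRows, Matrix.neg_mul, hcomm, neg_add_cancel]
  have hr := Matrix.rank_add_rank_le_card_of_mul_eq_zero hz
  have hK : Kt.rank = Fintype.card Eh := by
    apply LinearIndependent.rank_matrix
    rw [Fintype.linearIndependent_iff]
    intro c hc
    -- extend `c` by zero
    set c' : V → V → KK V := fun a u => if h : (a, u) ∈ Eh then c ⟨(a, u), h⟩ else 0 with hc'
    have key1 : ∀ u, ∀ a ∈ (Finset.univ.filter fun a => (a, u) ∈ Eh), c' a u = 0 := by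
      intro u
      refine gen_hall r (T := Finset.univ.filter fun z => (z, u) ∈ H) ?_ ?_
      · intro S hS
        refine (h2 u S fun a ha => ?_).trans (Finset.card_le_card ?_)
        · have := (Finset.mem_filter.1 (hS ha)).2
          exact Finset.mem_sdiff.1 this
        · intro z hz
          obtain ⟨-, ⟨a, ha, haz⟩, hzE⟩ := Finset.mem_filter.1 hz
          refine Finset.mem_filter.2 ⟨Finset.mem_filter.2 ⟨Finset.mem_univ _, ?_⟩, a, ha, haz⟩
          refine Finset.mem_sdiff.2 ⟨hzE, fun hA => ?_⟩
          have h3 := (Finset.mem_filter.1 (hS ha)).2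
          exact (Finset.mem_sdiff.1 h3).2 (mem_AA.1 hA a haz)
      · intro z hz
        have hzH : (z, u) ∈ H := (Finset.mem_filter.1 hz).2
        have h3 := congrFun hc (Sum.inr ⟨(z, u), hzH⟩)
        rw [Finset.sum_apply] at h3
        have h4 : ∀ q : Eh, (c q • Kt.row q) (Sum.inr ⟨(z, u), hzH⟩) =
            if q.1.2 = u then c q * PP r z q.1.1 else 0 := by
          intro q
          show c q * de q ⟨(z, u), hzH⟩ = _
          simp only [de]
          split_ifs <;> simp
        rw [Finset.sum_congr rfl fun q _ => h4 q] at h3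
        rw [Pi.zero_apply] at h3
        rw [← h3, ← Finset.sum_filter]
        symm
        refine Finset.sum_bij' (i := fun q _ => q.1.1) (j := fun a ha =>
          (⟨(a, u), (Finset.mem_filter.1 ha).2⟩ : Eh)) ?_ ?_ ?_ ?_ ?_
        · rintro ⟨⟨a, y⟩, hq⟩ hq'
          have hy : y = u := (Finset.mem_filter.1 hq').2
          subst hy
          exact Finset.mem_filter.2 ⟨Finset.mem_univ _, hq⟩
        · intro a ha
          exact Finset.mem_filter.2 ⟨Finset.mem_univ _, rfl⟩
        · rintro ⟨⟨a, y⟩, hq⟩ hq'
          have hy : y = u := (Finset.mem_filter.1 hq').2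
          subst hy
          rfl
        · intro a ha
          rfl
        · rintro ⟨⟨a, y⟩, hq⟩ hq'
          have hy : y = u := (Finset.mem_filter.1 hq').2
          subst hy
          simp only [hc', dif_pos hq]
    rintro ⟨⟨a, u⟩, hq⟩
    have h3 := key1 u a (Finset.mem_filter.2 ⟨Finset.mem_univ _, hq⟩)
    simp only [hc', dif_pos hq] at h3
    exact h3
  have hI : io.rank = Fintype.card Ah := by
    rw [← Matrix.rank_transpose]
    apply LinearIndependent.rank_matrix
    rw [Fintype.linearIndependent_iff]
    intro c hc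
    set c' : V → V → KK V := fun a x => if h : (a, x) ∈ Ah then c ⟨(a, x), h⟩ else 0 with hc'
    have key1 : ∀ a, ∀ x ∈ (Finset.univ.filter fun x => (a, x) ∈ Ah), c' a x = 0 := by
      intro a
      refine gen_hall r (T := Finset.univ.filter fun u => (a, u) ∈ H) ?_ ?_
      · intro S hS
        refine (h1 a S fun x hx => ?_).trans (Finset.card_le_card ?_)
        · have := (Finset.mem_filter.1 (hS hx)).2
          exact Finset.mem_sdiff.1 this
        · intro u hu
          obtain ⟨-, ⟨x, hx, hxu⟩, huA⟩ := Finset.mem_filter.1 hu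
          refine Finset.mem_filter.2 ⟨Finset.mem_filter.2 ⟨Finset.mem_univ _, ?_⟩, x, hx, hxu⟩
          have h3 := (Finset.mem_filter.1 (hS hx)).2
          exact Finset.mem_sdiff.2 ⟨mem_EE.2 ⟨x, hxu, (Finset.mem_sdiff.1 h3).1⟩, huA⟩
      · intro u hu
        have huH : (a, u) ∈ H := (Finset.mem_filter.1 hu).2
        have h3 := congrFun hc (Sum.inr ⟨(a, u), huH⟩)
        rw [Finset.sum_apply] at h3
        have h4 : ∀ q : Ah, (c q • io.transpose.row q) (Sum.inr ⟨(a, u), huH⟩) =
            if q.1.1 = a then c q * PP r u q.1.2 else 0 := by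
          intro q
          show c q * ga ⟨(a, u), huH⟩ q = _
          simp only [ga]
          by_cases h5 : q.1.1 = a
          · rw [if_pos h5, if_pos h5.symm]
          · rw [if_neg h5, if_neg (fun h => h5 h.symm), mul_zero]
        rw [Finset.sum_congr rfl fun q _ => h4 q] at h3
        rw [Pi.zero_apply] at h3
        rw [← h3, ← Finset.sum_filter]
        symm
        refine Finset.sum_bij' (i := fun q _ => q.1.2) (j := fun x hx =>
          (⟨(a, x), (Finset.mem_filter.1 hx).2⟩ : Ah)) ?_ ?_ ?_ ?_ ?_
        · rintro ⟨⟨b, y⟩, hq⟩ hq'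
          have hy : b = a := (Finset.mem_filter.1 hq').2
          subst hy
          exact Finset.mem_filter.2 ⟨Finset.mem_univ _, hq⟩
        · intro x hx
          exact Finset.mem_filter.2 ⟨Finset.mem_univ _, rfl⟩
        · rintro ⟨⟨b, y⟩, hq⟩ hq'
          have hy : b = a := (Finset.mem_filter.1 hq').2
          subst hy
          rfl
        · intro x hx
          rfl
        · rintro ⟨⟨b, y⟩, hq⟩ hq'
          have hy : b = a := (Finset.mem_filter.1 hq').2
          subst hy
          simp only [hc', dif_pos hq]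
    rintro ⟨⟨a, x⟩, hq⟩
    have h3 := key1 a x (Finset.mem_filter.2 ⟨Finset.mem_univ _, hq⟩)
    simp only [hc', dif_pos hq] at h3
    exact h3
  rw [hK, hI, Fintype.card_sum] at hr
  simp only [Fintype.card_coe] at hr
  exact hr

end Ops

end Vale.Agent.P038.H515
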